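import Mathlib
import Vale.Agent.Lib.P243.Defs
import Vale.Agent.Lib.P243.R3.Defs

/-!
# P243, `r_3 > 1/3`: a small set meeting every efficient chord (module M4)

`Star K p q` is the conclusion of the equality case of the cone bound: every boundary point
of `K` is joined to `p` or to `q` by a segment inside the boundary.  We show that for a convex
body `K` there are three segments in `K` whose union contains an endpoint of every pair
`p ≠ q` with `Star K p q`.
-/

namespace Vale.Agent.Lib.P243.R3.H44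

open MeasureTheory Set Vale.Agent.Lib.P243 Vale.Agent.Lib.P243.R3
open scoped Pointwise

/-! ### Linear algebra in `E3` -/

/-- Two functionals on `E3` have a common nonzero kernel vector. -/
theorem M4_common_dir (f1 f2 : E3 →L[ℝ] ℝ) : ∃ d : E3, d ≠ 0 ∧ f1 d = 0 ∧ f2 d = 0 := by
  have h : LinearMap.ker ((f1 : E3 →ₗ[ℝ] ℝ).prod (f2 : E3 →ₗ[ℝ] ℝ)) ≠ ⊥ := by
    apply LinearMap.ker_ne_bot_of_finrank_lt
    simp
  obtain ⟨d, hd, hd0⟩ := Submodule.exists_mem_ne_zero_of_ne_bot h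
  rw [LinearMap.mem_ker] at hd
  have h1 := congrArg Prod.fst hd
  have h2 := congrArg Prod.snd hd
  exact ⟨d, hd0, by simpa using h1, by simpa using h2⟩

/-- A nonzero functional on `E3` vanishing at two independent vectors has them as a basis of
its kernel: any functional vanishing at both vanishes on the kernel. -/
theorem M4_ker_le (f g : E3 →L[ℝ] ℝ) (hg : g ≠ 0) {v1 v2 : E3}
    (hli : LinearIndependent ℝ ![v1, v2]) (hg1 : g v1 = 0) (hg2 : g v2 = 0)
    (hf1 : f v1 = 0) (hf2 : f v2 = 0) {w : E3} (hw : g w = 0) : f w = 0 := by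
  have hspan_le : Submodule.span ℝ (Set.range ![v1, v2]) ≤ LinearMap.ker (g : E3 →ₗ[ℝ] ℝ) := by
    rw [Submodule.span_le]
    rintro _ ⟨i, rfl⟩
    fin_cases i <;> simp [hg1, hg2]
  have hspan_le_f : Submodule.span ℝ (Set.range ![v1, v2]) ≤
      LinearMap.ker (f : E3 →ₗ[ℝ] ℝ) := by
    rw [Submodule.span_le]
    rintro _ ⟨i, rfl⟩
    fin_cases i <;> simp [hf1, hf2]
  have hfr_span : Module.finrank ℝ (Submodule.span ℝ (Set.range ![v1, v2])) = 2 := by
    rw [finrank_span_eq_card hli]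
    simp
  have hg' : (g : Module.Dual ℝ E3) ≠ 0 := by
    intro h
    apply hg
    ext x
    have := congrArg (fun φ : Module.Dual ℝ E3 => φ x) h
    simpa using this
  have hfr_ker : Module.finrank ℝ (LinearMap.ker (g : E3 →ₗ[ℝ] ℝ)) = 2 := by
    have h1 := Module.Dual.finrank_ker_add_one_of_ne_zero hg'
    have h3 : Module.finrank ℝ E3 = 3 := by simp
    omega
  have heq := Submodule.eq_of_le_of_finrank_eq hspan_le (by rw [hfr_span, hfr_ker])
  have hw' : w ∈ Submodule.span ℝ (Set.range ![v1, v2]) := by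
    rw [heq]
    exact hw
  exact hspan_le_f hw'

/-! ### Supporting functionals -/

/-- A supporting functional at a boundary point of a convex body. -/
theorem M4_sup {K : Set E3} (hK : Body K) {m : E3} (hm : m ∈ frontier K) :
    ∃ f : E3 →L[ℝ] ℝ, f ≠ 0 ∧ ∀ y ∈ K, f y ≤ f m := by
  have hm' : m ∉ interior K := fun h => hm.2 h
  obtain ⟨f, hf⟩ := geometric_hahn_banach_open_point hK.conv.interior isOpen_interior hm'
  refine ⟨f, ?_, ?_⟩
  · rintro rfl
    obtain ⟨a, ha⟩ := hK.int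
    have := hf a ha
    simp at this
  · intro y hy
    have hy' : y ∈ closure (interior K) := by
      rw [hK.conv.closure_interior_eq_closure_of_nonempty_interior hK.int]
      exact subset_closure hy
    have hcl : IsClosed {y : E3 | f y ≤ f m} := isClosed_le f.continuous continuous_const
    exact closure_minimal (fun a ha => (hf a ha).le) hcl hy'

/-- From an interior point one can move a little in any direction and stay in the set. -/
theorem M4_push {K : Set E3} {c : E3} (hc : c ∈ interior K) (v : E3) :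
    ∃ ε : ℝ, 0 < ε ∧ c + ε • v ∈ K := by
  have hcont : ContinuousAt (fun t : ℝ => c + t • v) 0 := by fun_prop
  have hmem : (fun t : ℝ => c + t • v) 0 ∈ interior K := by simpa using hc
  have hev := hcont.eventually (isOpen_interior.mem_nhds hmem)
  obtain ⟨ε, hε, hball⟩ := Metric.eventually_nhds_iff.1 hev
  refine ⟨ε / 2, by positivity, interior_subset (hball ?_)⟩
  rw [Real.dist_eq, sub_zero, abs_of_pos (by positivity)]
  linarith

/-- An interior point lies strictly below the maximum of a nonzero functional. -/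
theorem M4_interior_lt {K : Set E3} {f : E3 →L[ℝ] ℝ} (hf : f ≠ 0) {M : ℝ}
    (hM : ∀ y ∈ K, f y ≤ M) {c : E3} (hc : c ∈ interior K) : f c < M := by
  by_contra hcon
  push Not at hcon
  obtain ⟨v, hv⟩ : ∃ v, 0 < f v := by
    by_contra h
    push Not at h
    apply hf
    ext x
    have h1 := h x
    have h2 := h (-x)
    rw [map_neg] at h2
    simp only [zero_apply]
    linarith
  obtain ⟨ε, hε, hmem⟩ := M4_push hc v
  have h1 := hM _ hmem
  rw [map_add, map_smul, smul_eq_mul] at h1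
  have h2 : 0 < ε * f v := mul_pos hε hv
  linarith

/-- A point of `K` where a nonzero functional attains its maximum is a boundary point. -/
theorem M4_mem_frontier {K : Set E3} {f : E3 →L[ℝ] ℝ} (hf : f ≠ 0) {M : ℝ}
    (hM : ∀ y ∈ K, f y ≤ M) {x : E3} (hx : x ∈ K) (hfx : f x = M) : x ∈ frontier K := by
  refine ⟨subset_closure hx, fun hint => ?_⟩
  have := M4_interior_lt hf hM hint
  linarith

/-- The ray from an interior point in a nonzero direction leaves the body through its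
boundary. -/
theorem M4_exit {K : Set E3} (hK : Body K) {c : E3} (hc : c ∈ interior K) {d : E3}
    (hd : d ≠ 0) : ∃ T : ℝ, c + T • d ∈ frontier K := by
  set A : Set ℝ := {t | c + t • d ∈ K} with hA
  have hAcl : IsClosed A := hK.compact.isClosed.preimage (by fun_prop)
  have hAbd : Bornology.IsBounded A := by
    obtain ⟨R, hR⟩ := hK.compact.isBounded.subset_closedBall (0 : E3)
    refine (Metric.isBounded_closedBall (x := (0 : ℝ)) (r := (R + ‖c‖) / ‖d‖)).subset ?_
    intro t ht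
    have h1 : ‖c + t • d‖ ≤ R := by simpa using hR ht
    have h2 : ‖t • d‖ ≤ R + ‖c‖ := by
      calc ‖t • d‖ = ‖(c + t • d) - c‖ := by
            congr 1
            abel
        _ ≤ ‖c + t • d‖ + ‖c‖ := norm_sub_le _ _
        _ ≤ R + ‖c‖ := by linarith
    rw [norm_smul] at h2
    rw [mem_closedBall_zero_iff, le_div_iff₀ (norm_pos_iff.2 hd)]
    exact h2
  have hAc : IsCompact A := Metric.isCompact_of_isClosed_isBounded hAcl hAbd
  have hA0 : (0 : ℝ) ∈ A := by
    show c + (0 : ℝ) • d ∈ K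
    rw [zero_smul, add_zero]
    exact interior_subset hc
  obtain ⟨T, hT, hmax⟩ := hAc.exists_isMaxOn ⟨0, hA0⟩ (continuous_id.continuousOn (s := A))
  refine ⟨T, subset_closure hT, fun hint => ?_⟩
  obtain ⟨ε, hε, hmem⟩ := M4_push hint d
  have hmemA : T + ε ∈ A := by
    show c + (T + ε) • d ∈ K
    rw [add_smul, ← add_assoc]
    exact hmem
  have h := hmax hmemA
  simp only [id] at h
  have h' : T + ε ≤ T := h
  linarith

/-! ### Collinearity -/

/-- The three points are not collinear. -/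
def NonCol (a b c : E3) : Prop := LinearIndependent ℝ ![b - a, c - a]

theorem M4_col {a b x : E3} (hab : a ≠ b) (h : ¬ NonCol a b x) :
    ∃ t : ℝ, x = a + t • (b - a) := by
  unfold NonCol at h
  rw [LinearIndependent.pair_iff] at h
  push Not at h
  obtain ⟨s, t, hst, hne⟩ := h
  have ht : t ≠ 0 := by
    intro ht0
    rw [ht0, zero_smul, add_zero] at hst
    have hs : s = 0 := by
      rcases smul_eq_zero.1 hst with h | h
      · exact h
      · exact absurd (sub_eq_zero.1 h).symm hab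
    exact hne hs ht0
  refine ⟨-(s / t), ?_⟩
  have h1 : t • (x - a) = -(s • (b - a)) := by
    rw [eq_neg_iff_add_eq_zero, add_comm]
    exact hst
  have h2 : x - a = (-(s / t)) • (b - a) := by
    calc x - a = (t⁻¹ * t) • (x - a) := by rw [inv_mul_cancel₀ ht, one_smul]
      _ = t⁻¹ • (t • (x - a)) := by rw [mul_smul]
      _ = t⁻¹ • (-(s • (b - a))) := by rw [h1]
      _ = (-(s / t)) • (b - a) := by
          rw [smul_neg, smul_smul, neg_smul]
          congr 2
          field_simp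
  rw [← h2]
  abel

/-- A diametral pair of a nonempty compact set. -/
theorem M4_diam {S : Set E3} (hS : IsCompact S) (hne : S.Nonempty) :
    ∃ α ∈ S, ∃ β ∈ S, ∀ x ∈ S, dist x α ≤ dist α β ∧ dist x β ≤ dist α β := by
  have hcont : ContinuousOn (fun z : E3 × E3 => dist z.1 z.2) (S ×ˢ S) :=
    continuous_dist.continuousOn
  obtain ⟨z, hmem, hmax⟩ := (hS.prod hS).exists_isMaxOn (hne.prod hne) hcont
  rw [isMaxOn_iff] at hmax
  obtain ⟨α, β⟩ := z
  rw [Set.mem_prod] at hmem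
  have hα : α ∈ S := hmem.1
  have hβ : β ∈ S := hmem.2
  refine ⟨α, hα, β, hβ, fun x hx => ?_⟩
  have h1 : dist x α ≤ dist α β := hmax (x, α) (Set.mem_prod.2 ⟨hx, hα⟩)
  have h2 : dist x β ≤ dist α β := hmax (x, β) (Set.mem_prod.2 ⟨hx, hβ⟩)
  exact ⟨h1, h2⟩

/-- A nonempty compact set without three non-collinear points lies in a segment with
endpoints in the set. -/
theorem M4_segment {S : Set E3} (hS : IsCompact S) (hne : S.Nonempty)
    (hcol : ∀ a ∈ S, ∀ b ∈ S, ∀ x ∈ S, ¬ NonCol a b x) :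
    ∃ α ∈ S, ∃ β ∈ S, S ⊆ segment ℝ α β := by
  obtain ⟨α, hα, β, hβ, hmax⟩ := M4_diam hS hne
  refine ⟨α, hα, β, hβ, fun x hx => ?_⟩
  obtain ⟨h1, h2⟩ := hmax x hx
  by_cases hab : α = β
  · subst hab
    rw [dist_self] at h1
    have : x = α := dist_le_zero.1 h1
    rw [this]
    exact left_mem_segment ℝ α α
  · obtain ⟨t, ht⟩ := M4_col hab (hcol α hα β hβ x hx)
    have hpos : 0 < ‖β - α‖ := norm_pos_iff.2 (sub_ne_zero.2 (Ne.symm hab))
    have e1 : dist x α = |t| * ‖β - α‖ := by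
      rw [dist_eq_norm, ht, add_sub_cancel_left, norm_smul, Real.norm_eq_abs]
    have e2 : dist x β = |1 - t| * ‖β - α‖ := by
      rw [dist_eq_norm, ht]
      have : α + t • (β - α) - β = (-(1 - t)) • (β - α) := by
        rw [neg_smul, sub_smul, one_smul]
        abel
      rw [this, norm_smul, Real.norm_eq_abs, abs_neg]
    have e3 : dist α β = ‖β - α‖ := by rw [dist_comm, dist_eq_norm]
    rw [e1, e3] at h1
    rw [e2, e3] at h2
    have ht1 : |t| ≤ 1 := by
      by_contra hcon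
      push Not at hcon
      nlinarith
    have ht2 : |1 - t| ≤ 1 := by
      by_contra hcon
      push Not at hcon
      nlinarith
    rw [abs_le] at ht1 ht2
    rw [segment_eq_image']
    exact ⟨t, ⟨by linarith, by linarith⟩, ht.symm⟩

/-! ### Facets, shared supporting planes, star pairs -/

/-- `f` with maximal value `M` on `K` supports a facet: its face contains three non-collinear
points. -/
def FacetFun (K : Set E3) (f : E3 →L[ℝ] ℝ) (M : ℝ) : Prop :=
  f ≠ 0 ∧ (∀ y ∈ K, f y ≤ M) ∧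
    ∃ y1 y2 y3 : E3, y1 ∈ K ∧ y2 ∈ K ∧ y3 ∈ K ∧ f y1 = M ∧ f y2 = M ∧ f y3 = M ∧
      NonCol y1 y2 y3

/-- `a` and `x` lie in a common supporting plane of `K`. -/
def Share (K : Set E3) (a x : E3) : Prop :=
  ∃ f : E3 →L[ℝ] ℝ, f ≠ 0 ∧ (∀ y ∈ K, f y ≤ f a) ∧ f x = f a

/-- Every boundary point of `K` is joined to `p` or to `q` by a segment in the boundary. -/
def Star (K : Set E3) (p q : E3) : Prop :=
  ∀ x ∈ frontier K, segment ℝ p x ⊆ frontier K ∨ segment ℝ q x ⊆ frontier K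

theorem M4_share_of_segment {K : Set E3} (hK : Body K) {a x : E3} (ha : a ∈ K) (hx : x ∈ K)
    (hseg : segment ℝ a x ⊆ frontier K) : Share K a x := by
  have hm : (1 / 2 : ℝ) • a + (1 / 2 : ℝ) • x ∈ frontier K :=
    hseg ⟨1 / 2, 1 / 2, by norm_num, by norm_num, by norm_num, rfl⟩
  obtain ⟨f, hf0, hf⟩ := M4_sup hK hm
  have e : f ((1 / 2 : ℝ) • a + (1 / 2 : ℝ) • x) = (1 / 2) * f a + (1 / 2) * f x := by
    rw [map_add, map_smul, map_smul, smul_eq_mul, smul_eq_mul]
  have h1 := hf a ha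
  have h2 := hf x hx
  rw [e] at h1 h2
  refine ⟨f, hf0, fun y hy => ?_, ?_⟩
  · have h3 := hf y hy
    rw [e] at h3
    linarith
  · linarith

theorem M4_star_share {K : Set E3} (hK : Body K) {p q : E3} (hp : p ∈ K) (hq : q ∈ K)
    (hS : Star K p q) {x : E3} (hx : x ∈ frontier K) : Share K p x ∨ Share K q x := by
  have hxK : x ∈ K := hK.compact.isClosed.frontier_subset hx
  rcases hS x hx with h | h
  · exact Or.inl (M4_share_of_segment hK hp hxK h)
  · exact Or.inr (M4_share_of_segment hK hq hxK h)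

/-- If `p` shares a supporting plane with the centroid of three non-collinear points of a
face, then `p` lies in the plane of that face. -/
theorem M4_facet_mem {K : Set E3} {f : E3 →L[ℝ] ℝ} {M : ℝ} {y1 y2 y3 : E3}
    (h1 : y1 ∈ K) (h2 : y2 ∈ K) (h3 : y3 ∈ K) (e1 : f y1 = M) (e2 : f y2 = M) (e3 : f y3 = M)
    (hnc : NonCol y1 y2 y3) {p : E3} (hsh : Share K p ((1 / 3 : ℝ) • (y1 + y2 + y3))) :
    f p = M := by
  obtain ⟨g, hg0, hg, hgx⟩ := hsh
  have hx : g ((1 / 3 : ℝ) • (y1 + y2 + y3)) = (1 / 3) * (g y1 + g y2 + g y3) := by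
    rw [map_smul, map_add, map_add, smul_eq_mul]
  rw [hx] at hgx
  have g1 := hg y1 h1
  have g2 := hg y2 h2
  have g3 := hg y3 h3
  have k1 : g y1 = g p := by linarith
  have k2 : g y2 = g p := by linarith
  have k3 : g y3 = g p := by linarith
  have key := M4_ker_le f g hg0 hnc (by rw [map_sub, k2, k1, sub_self])
    (by rw [map_sub, k3, k1, sub_self]) (by rw [map_sub, e2, e1, sub_self])
    (by rw [map_sub, e3, e1, sub_self]) (w := p - y1) (by rw [map_sub, k1, sub_self])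
  rw [map_sub, e1] at key
  linarith

/-- Every star pair has an endpoint in the plane of every facet. -/
theorem M4_facet_hit {K : Set E3} (hK : Body K) {f : E3 →L[ℝ] ℝ} {M : ℝ}
    (hF : FacetFun K f M) {p q : E3} (hp : p ∈ K) (hq : q ∈ K) (hS : Star K p q) :
    f p = M ∨ f q = M := by
  obtain ⟨hf0, hfM, y1, y2, y3, h1, h2, h3, e1, e2, e3, hnc⟩ := hF
  have hcK : (1 / 3 : ℝ) • (y1 + y2 + y3) ∈ K := by
    have h23 : (1 / 2 : ℝ) • y2 + (1 / 2 : ℝ) • y3 ∈ K :=
      hK.conv h2 h3 (by norm_num) (by norm_num) (by norm_num)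
    have h123 : (1 / 3 : ℝ) • y1 + (2 / 3 : ℝ) • ((1 / 2 : ℝ) • y2 + (1 / 2 : ℝ) • y3) ∈ K :=
      hK.conv h1 h23 (by norm_num) (by norm_num) (by norm_num)
    have e : (1 / 3 : ℝ) • (y1 + y2 + y3) =
        (1 / 3 : ℝ) • y1 + (2 / 3 : ℝ) • ((1 / 2 : ℝ) • y2 + (1 / 2 : ℝ) • y3) := by
      module
    rw [e]
    exact h123
  have hcf : f ((1 / 3 : ℝ) • (y1 + y2 + y3)) = M := by
    rw [map_smul, map_add, map_add, smul_eq_mul, e1, e2, e3]
    ring
  have hcfr : (1 / 3 : ℝ) • (y1 + y2 + y3) ∈ frontier K := M4_mem_frontier hf0 hfM hcK hcf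
  rcases M4_star_share hK hp hq hS hcfr with h | h
  · exact Or.inl (M4_facet_mem h1 h2 h3 e1 e2 e3 hnc h)
  · exact Or.inr (M4_facet_mem h1 h2 h3 e1 e2 e3 hnc h)

/-- Two planes through three common non-collinear points coincide. -/
theorem M4_plane_eq {f g : E3 →L[ℝ] ℝ} {M N : ℝ} (hf : f ≠ 0) (hg : g ≠ 0) {y1 y2 y3 : E3}
    (hnc : NonCol y1 y2 y3) (f1 : f y1 = M) (f2 : f y2 = M) (f3 : f y3 = M)
    (g1 : g y1 = N) (g2 : g y2 = N) (g3 : g y3 = N) :
    {x : E3 | f x = M} = {x : E3 | g x = N} := by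
  ext x
  simp only [Set.mem_ofPred_eq]
  constructor
  · intro hx
    have key := M4_ker_le g f hf hnc (by rw [map_sub, f2, f1, sub_self])
      (by rw [map_sub, f3, f1, sub_self]) (by rw [map_sub, g2, g1, sub_self])
      (by rw [map_sub, g3, g1, sub_self]) (w := x - y1) (by rw [map_sub, hx, f1, sub_self])
    rw [map_sub, g1] at key
    linarith
  · intro hx
    have key := M4_ker_le f g hg hnc (by rw [map_sub, g2, g1, sub_self])
      (by rw [map_sub, g3, g1, sub_self]) (by rw [map_sub, f2, f1, sub_self])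
      (by rw [map_sub, f3, f1, sub_self]) (w := x - y1) (by rw [map_sub, hx, g1, sub_self])
    rw [map_sub, f1] at key
    linarith

/-- The part of `K` in two distinct planes lies in a segment with endpoints in `K`. -/
theorem M4_inter_segment {K : Set E3} (hK : Body K) {f g : E3 →L[ℝ] ℝ} {M N : ℝ}
    (hf : f ≠ 0) (hg : g ≠ 0) (hne : {x : E3 | f x = M} ≠ {x : E3 | g x = N}) :
    ∃ α ∈ K, ∃ β ∈ K, ∀ x ∈ K, f x = M → g x = N → x ∈ segment ℝ α β := by
  set S : Set E3 := K ∩ ({x : E3 | f x = M} ∩ {x : E3 | g x = N}) with hS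
  have hSc : IsCompact S :=
    hK.compact.inter_right ((isClosed_eq f.continuous continuous_const).inter
      (isClosed_eq g.continuous continuous_const))
  rcases S.eq_empty_or_nonempty with hemp | hnon
  · obtain ⟨x0, hx0⟩ := hK.int
    have hx0K := interior_subset hx0
    refine ⟨x0, hx0K, x0, hx0K, fun x hx h1 h2 => ?_⟩
    have hxS : x ∈ S := ⟨hx, h1, h2⟩
    rw [hemp] at hxS
    exact absurd hxS (Set.notMem_empty x)
  · obtain ⟨α, hα, β, hβ, hsub⟩ := M4_segment hSc hnon (fun a ha b hb x hx hnc =>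
      hne (M4_plane_eq hf hg hnc ha.2.1 hb.2.1 hx.2.1 ha.2.2 hb.2.2 hx.2.2))
    exact ⟨α, hα.1, β, hβ.1, fun x hx h1 h2 => hsub ⟨hx, h1, h2⟩⟩

/-- Three facets in pairwise distinct planes: the three pairwise intersections form a
hitting set. -/
theorem M4_caseA {K : Set E3} (hK : Body K) {f1 f2 f3 : E3 →L[ℝ] ℝ} {M1 M2 M3 : ℝ}
    (F1 : FacetFun K f1 M1) (F2 : FacetFun K f2 M2) (F3 : FacetFun K f3 M3)
    (h12 : {x : E3 | f1 x = M1} ≠ {x : E3 | f2 x = M2})
    (h13 : {x : E3 | f1 x = M1} ≠ {x : E3 | f3 x = M3})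
    (h23 : {x : E3 | f2 x = M2} ≠ {x : E3 | f3 x = M3}) :
    ∃ α β : Fin 3 → E3, (∀ j, α j ∈ K ∧ β j ∈ K) ∧
      ∀ p ∈ K, ∀ q ∈ K, Star K p q →
        (p ∈ ⋃ j, segment ℝ (α j) (β j)) ∨ (q ∈ ⋃ j, segment ℝ (α j) (β j)) := by
  obtain ⟨a12, ha12, b12, hb12, s12⟩ := M4_inter_segment hK F1.1 F2.1 h12
  obtain ⟨a13, ha13, b13, hb13, s13⟩ := M4_inter_segment hK F1.1 F3.1 h13
  obtain ⟨a23, ha23, b23, hb23, s23⟩ := M4_inter_segment hK F2.1 F3.1 h23
  refine ⟨![a12, a13, a23], ![b12, b13, b23], ?_, ?_⟩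
  · intro j
    fin_cases j
    · exact ⟨ha12, hb12⟩
    · exact ⟨ha13, hb13⟩
    · exact ⟨ha23, hb23⟩
  · intro p hp q hq hS
    have m0 : ∀ x : E3, x ∈ segment ℝ a12 b12 →
        x ∈ ⋃ j, segment ℝ ((![a12, a13, a23] : Fin 3 → E3) j)
          ((![b12, b13, b23] : Fin 3 → E3) j) := fun x hx => mem_iUnion.2 ⟨0, hx⟩
    have m1 : ∀ x : E3, x ∈ segment ℝ a13 b13 →
        x ∈ ⋃ j, segment ℝ ((![a12, a13, a23] : Fin 3 → E3) j)
          ((![b12, b13, b23] : Fin 3 → E3) j) := fun x hx => mem_iUnion.2 ⟨1, hx⟩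
    have m2 : ∀ x : E3, x ∈ segment ℝ a23 b23 →
        x ∈ ⋃ j, segment ℝ ((![a12, a13, a23] : Fin 3 → E3) j)
          ((![b12, b13, b23] : Fin 3 → E3) j) := fun x hx => mem_iUnion.2 ⟨2, hx⟩
    rcases M4_facet_hit hK F1 hp hq hS with c1 | c1 <;>
    rcases M4_facet_hit hK F2 hp hq hS with c2 | c2 <;>
    rcases M4_facet_hit hK F3 hp hq hS with c3 | c3
    · exact Or.inl (m0 p (s12 p hp c1 c2))
    · exact Or.inl (m0 p (s12 p hp c1 c2))
    · exact Or.inl (m1 p (s13 p hp c1 c3))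
    · exact Or.inr (m2 q (s23 q hq c2 c3))
    · exact Or.inl (m2 p (s23 p hp c2 c3))
    · exact Or.inr (m1 q (s13 q hq c1 c3))
    · exact Or.inr (m0 q (s12 q hq c1 c2))
    · exact Or.inr (m0 q (s12 q hq c1 c2))

/-! ### The boundary is not contained in two planes and four lines -/

/-- The set `a + ℝ (b - a) + ℝ d` is a null set. -/
theorem M4_plane_null (a b d : E3) :
    volume {x : E3 | ∃ s t : ℝ, x = a + s • (b - a) + t • d} = 0 := by
  obtain ⟨n, hn0, hn1, hn2⟩ := M4_common_dir (innerSL ℝ (b - a)) (innerSL ℝ d)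
  rw [innerSL_apply_apply] at hn1 hn2
  set g : E3 →L[ℝ] ℝ := innerSL ℝ n with hg
  have k1 : g (b - a) = 0 := by
    rw [hg, innerSL_apply_apply, real_inner_comm]
    exact hn1
  have k2 : g d = 0 := by
    rw [hg, innerSL_apply_apply, real_inner_comm]
    exact hn2
  have hgne : (g : E3 →ₗ[ℝ] ℝ) ≠ 0 := by
    intro h
    have h1 : g n = 0 := by
      have := congrArg (fun φ : E3 →ₗ[ℝ] ℝ => φ n) h
      simpa using this
    rw [hg, innerSL_apply_apply, real_inner_self_eq_norm_sq] at h1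
    exact hn0 (norm_eq_zero.1 ((pow_eq_zero_iff two_ne_zero).1 h1))
  have hsub : {x : E3 | ∃ s t : ℝ, x = a + s • (b - a) + t • d} ⊆
      (fun x => x + (-a)) ⁻¹' (LinearMap.ker (g : E3 →ₗ[ℝ] ℝ) : Set E3) := by
    rintro x ⟨s, t, rfl⟩
    show a + s • (b - a) + t • d + -a ∈ LinearMap.ker (g : E3 →ₗ[ℝ] ℝ)
    rw [LinearMap.mem_ker]
    have e : a + s • (b - a) + t • d + -a = s • (b - a) + t • d := by abel
    rw [e]
    show g (s • (b - a) + t • d) = 0
    rw [map_add, map_smul, map_smul, k1, k2, smul_zero, smul_zero, add_zero]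
  refine measure_mono_null hsub ?_
  rw [measure_preimage_add_right]
  exact Measure.addHaar_submodule volume _ (fun h => hgne (LinearMap.ker_eq_top.1 h))

/-- Second step: from a plane shared by `a1` and `e` to a supporting plane through `a1`, `e`
and an endpoint of another star pair. -/
theorem M4_share3 {K : Set E3} (hK : Body K) {a1 e : E3} (ha1 : a1 ∈ K) (he : e ∈ K)
    (hsh : Share K a1 e) {p2 q2 : E3} (hp2 : p2 ∈ K) (hq2 : q2 ∈ K) (hS2 : Star K p2 q2) :
    (∃ g : E3 →L[ℝ] ℝ, g ≠ 0 ∧ (∀ y ∈ K, g y ≤ g p2) ∧ g a1 = g p2 ∧ g e = g p2) ∨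
    (∃ g : E3 →L[ℝ] ℝ, g ≠ 0 ∧ (∀ y ∈ K, g y ≤ g q2) ∧ g a1 = g q2 ∧ g e = g q2) := by
  obtain ⟨f, hf0, hf, hfe⟩ := hsh
  have hmK : (1 / 2 : ℝ) • a1 + (1 / 2 : ℝ) • e ∈ K :=
    hK.conv ha1 he (by norm_num) (by norm_num) (by norm_num)
  have hmf : f ((1 / 2 : ℝ) • a1 + (1 / 2 : ℝ) • e) = f a1 := by
    rw [map_add, map_smul, map_smul, smul_eq_mul, smul_eq_mul, hfe]
    ring
  have hmfr := M4_mem_frontier hf0 hf hmK hmf
  have aux : ∀ a2 : E3, Share K a2 ((1 / 2 : ℝ) • a1 + (1 / 2 : ℝ) • e) →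
      ∃ g : E3 →L[ℝ] ℝ, g ≠ 0 ∧ (∀ y ∈ K, g y ≤ g a2) ∧ g a1 = g a2 ∧ g e = g a2 := by
    rintro a2 ⟨g, hg0, hg, hgm⟩
    have e' : g ((1 / 2 : ℝ) • a1 + (1 / 2 : ℝ) • e) = (1 / 2) * g a1 + (1 / 2) * g e := by
      rw [map_add, map_smul, map_smul, smul_eq_mul, smul_eq_mul]
    rw [e'] at hgm
    have h1 := hg a1 ha1
    have h2 := hg e he
    exact ⟨g, hg0, hg, by linarith, by linarith⟩
  rcases M4_star_share hK hp2 hq2 hS2 hmfr with h | h
  · exact Or.inl (aux p2 h)
  · exact Or.inr (aux q2 h)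

/-- Third step: if no facet plane contains the direction `d`-translate, the exit point lies
on the line through the two endpoints. -/
theorem M4_on_line {K : Set E3} {d : E3} (hdir : ∀ f M, FacetFun K f M → f d = 0)
    {c : E3} (hc : c ∈ interior K) {T : ℝ} {a1 a2 : E3} (ha1 : a1 ∈ K) (ha2 : a2 ∈ K)
    (he : c + T • d ∈ K) (hne : a1 ≠ a2) {g : E3 →L[ℝ] ℝ} (hg0 : g ≠ 0)
    (hg : ∀ y ∈ K, g y ≤ g a2) (hg1 : g a1 = g a2) (hge : g (c + T • d) = g a2) :
    ∃ s t : ℝ, c = a1 + s • (a2 - a1) + t • d := by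
  by_cases hnc : NonCol a1 a2 (c + T • d)
  · exfalso
    have hF : FacetFun K g (g a2) :=
      ⟨hg0, hg, a1, a2, c + T • d, ha1, ha2, he, hg1, rfl, hge, hnc⟩
    have hgd := hdir g (g a2) hF
    rw [map_add, map_smul, hgd, smul_zero, add_zero] at hge
    have := M4_interior_lt hg0 hg hc
    linarith
  · obtain ⟨s, hs⟩ := M4_col hne hnc
    refine ⟨s, -T, ?_⟩
    rw [← hs, neg_smul]
    abel

theorem M4_same_plane_dir {K : Set E3} {f f' : E3 →L[ℝ] ℝ} {M M' : ℝ}
    (hF' : FacetFun K f' M') (heq : {x : E3 | f x = M} = {x : E3 | f' x = M'}) {d : E3}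
    (hd : f' d = 0) : f d = 0 := by
  obtain ⟨-, -, y1, -, -, -, -, -, e1, -, -, -⟩ := hF'
  have m1 : y1 ∈ {x : E3 | f x = M} := by
    rw [heq]
    exact e1
  have m2 : y1 + d ∈ {x : E3 | f x = M} := by
    rw [heq]
    show f' (y1 + d) = M'
    rw [map_add, hd, add_zero, e1]
  have m1' : f y1 = M := m1
  have m2' : f (y1 + d) = M := m2
  rw [map_add, m1'] at m2'
  linarith

/-- If a nonzero direction is parallel to every facet plane, two star pairs cannot be
disjoint. -/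
theorem M4_caseB {K : Set E3} (hK : Body K) {d : E3} (hd : d ≠ 0)
    (hdir : ∀ f M, FacetFun K f M → f d = 0)
    {p1 q1 p2 q2 : E3} (hp1 : p1 ∈ K) (hq1 : q1 ∈ K) (hp2 : p2 ∈ K) (hq2 : q2 ∈ K)
    (hS1 : Star K p1 q1) (hS2 : Star K p2 q2)
    (h1 : p1 ≠ p2) (h2 : p1 ≠ q2) (h3 : q1 ≠ p2) (h4 : q1 ≠ q2) : False := by
  have hcover : interior K ⊆
      {x : E3 | ∃ s t : ℝ, x = p1 + s • (p2 - p1) + t • d} ∪
      {x : E3 | ∃ s t : ℝ, x = p1 + s • (q2 - p1) + t • d} ∪
      {x : E3 | ∃ s t : ℝ, x = q1 + s • (p2 - q1) + t • d} ∪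
      {x : E3 | ∃ s t : ℝ, x = q1 + s • (q2 - q1) + t • d} := by
    intro c hc
    obtain ⟨T, hT⟩ := M4_exit hK hc hd
    have heK : c + T • d ∈ K := hK.compact.isClosed.frontier_subset hT
    have aux : ∀ a1 ∈ K, Share K a1 (c + T • d) → a1 ≠ p2 → a1 ≠ q2 →
        (∃ s t : ℝ, c = a1 + s • (p2 - a1) + t • d) ∨
        (∃ s t : ℝ, c = a1 + s • (q2 - a1) + t • d) := by
      intro a1 ha1 hsh n1 n2
      rcases M4_share3 hK ha1 heK hsh hp2 hq2 hS2 with ⟨g, hg0, hg, hg1, hge⟩ | ⟨g, hg0, hg, hg1, hge⟩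
      · exact Or.inl (M4_on_line hdir hc ha1 hp2 heK n1 hg0 hg hg1 hge)
      · exact Or.inr (M4_on_line hdir hc ha1 hq2 heK n2 hg0 hg hg1 hge)
    rcases M4_star_share hK hp1 hq1 hS1 hT with h | h
    · rcases aux p1 hp1 h h1 h2 with k | k
      · exact Or.inl (Or.inl (Or.inl k))
      · exact Or.inl (Or.inl (Or.inr k))
    · rcases aux q1 hq1 h h3 h4 with k | k
      · exact Or.inl (Or.inr k)
      · exact Or.inr k
  have hnull := measure_union_null (measure_union_null (measure_union_null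
    (M4_plane_null p1 p2 d) (M4_plane_null p1 q2 d)) (M4_plane_null q1 p2 d))
    (M4_plane_null q1 q2 d)
  have hpos : 0 < volume (interior K) := isOpen_interior.measure_pos volume hK.int
  rw [measure_mono_null hcover hnull] at hpos
  exact lt_irrefl _ hpos

/-! ### The hitting set -/

/-- For a convex body there are three segments in `K` whose union contains an endpoint of
every star pair. -/
theorem M4_hitting_of_star {K : Set E3} (hK : Body K) :
    ∃ α β : Fin 3 → E3, (∀ j, α j ∈ K ∧ β j ∈ K) ∧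
      ∀ p ∈ K, ∀ q ∈ K, Star K p q →
        (p ∈ ⋃ j, segment ℝ (α j) (β j)) ∨ (q ∈ ⋃ j, segment ℝ (α j) (β j)) := by
  by_cases hA : ∃ (f1 f2 f3 : E3 →L[ℝ] ℝ) (M1 M2 M3 : ℝ), FacetFun K f1 M1 ∧
      FacetFun K f2 M2 ∧ FacetFun K f3 M3 ∧
      {x : E3 | f1 x = M1} ≠ {x : E3 | f2 x = M2} ∧
      {x : E3 | f1 x = M1} ≠ {x : E3 | f3 x = M3} ∧
      {x : E3 | f2 x = M2} ≠ {x : E3 | f3 x = M3}
  · obtain ⟨f1, f2, f3, M1, M2, M3, F1, F2, F3, h12, h13, h23⟩ := hA
    exact M4_caseA hK F1 F2 F3 h12 h13 h23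
  · have hd : ∃ d : E3, d ≠ 0 ∧ ∀ f M, FacetFun K f M → f d = 0 := by
      by_cases h1 : ∃ f1 M1, FacetFun K f1 M1
      · obtain ⟨f1, M1, F1⟩ := h1
        by_cases h2 : ∃ f2 M2, FacetFun K f2 M2 ∧
            {x : E3 | f1 x = M1} ≠ {x : E3 | f2 x = M2}
        · obtain ⟨f2, M2, F2, hne⟩ := h2
          obtain ⟨d, hd0, hd1, hd2⟩ := M4_common_dir f1 f2
          refine ⟨d, hd0, fun f M F => ?_⟩
          by_cases e1 : {x : E3 | f x = M} = {x : E3 | f1 x = M1}
          · exact M4_same_plane_dir F1 e1 hd1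
          · by_cases e2 : {x : E3 | f x = M} = {x : E3 | f2 x = M2}
            · exact M4_same_plane_dir F2 e2 hd2
            · exact absurd ⟨f1, f2, f, M1, M2, M, F1, F2, F, hne, Ne.symm e1, Ne.symm e2⟩ hA
        · push Not at h2
          obtain ⟨d, hd0, hd1, -⟩ := M4_common_dir f1 f1
          exact ⟨d, hd0, fun f M F => M4_same_plane_dir F1 (h2 f M F).symm hd1⟩
      · obtain ⟨d, hd0, -, -⟩ := M4_common_dir 0 0
        exact ⟨d, hd0, fun f M F => absurd ⟨f, M, F⟩ h1⟩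
    obtain ⟨d, hd0, hdir⟩ := hd
    by_cases hex : ∃ p1 q1 : E3, p1 ∈ K ∧ q1 ∈ K ∧ Star K p1 q1
    · obtain ⟨p1, q1, hp1, hq1, hS1⟩ := hex
      refine ⟨![p1, q1, p1], ![p1, q1, p1], ?_, ?_⟩
      · intro j
        fin_cases j
        · exact ⟨hp1, hp1⟩
        · exact ⟨hq1, hq1⟩
        · exact ⟨hp1, hp1⟩
      · intro p hp q hq hS
        have m0 : p1 ∈ ⋃ j, segment ℝ ((![p1, q1, p1] : Fin 3 → E3) j)
            ((![p1, q1, p1] : Fin 3 → E3) j) := mem_iUnion.2 ⟨0, left_mem_segment ℝ p1 p1⟩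
        have m1 : q1 ∈ ⋃ j, segment ℝ ((![p1, q1, p1] : Fin 3 → E3) j)
            ((![p1, q1, p1] : Fin 3 → E3) j) := mem_iUnion.2 ⟨1, left_mem_segment ℝ q1 q1⟩
        by_contra hcon
        push Not at hcon
        obtain ⟨hc1, hc2⟩ := hcon
        have n1 : p1 ≠ p := fun h => hc1 (h ▸ m0)
        have n2 : p1 ≠ q := fun h => hc2 (h ▸ m0)
        have n3 : q1 ≠ p := fun h => hc1 (h ▸ m1)
        have n4 : q1 ≠ q := fun h => hc2 (h ▸ m1)
        exact M4_caseB hK hd0 hdir hp1 hq1 hp hq hS1 hS n1 n2 n3 n4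
    · obtain ⟨x0, hx0⟩ := hK.int
      have hx0K := interior_subset hx0
      refine ⟨fun _ => x0, fun _ => x0, fun _ => ⟨hx0K, hx0K⟩, fun p hp q hq hS => ?_⟩
      exact absurd ⟨p, q, hp, hq, hS⟩ hex

/-- Module M4 from the equality case M3b (given as a hypothesis, in the exact skeleton
form). -/
theorem M4_exists_hitting_of_M3b
    (M3b : ∀ {K : Set E3}, Body K → ∀ {p q : E3}, p ∈ K → q ∈ K → p ≠ q →
      Ahat K (q - p) = 3 * (volume K).toReal → ∀ {x : E3}, x ∈ frontier K →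
      segment ℝ p x ⊆ frontier K ∨ segment ℝ q x ⊆ frontier K)
    {K : Set E3} (hK : Body K) :
    ∃ α β : Fin 3 → E3, (∀ j, α j ∈ K ∧ β j ∈ K) ∧
      ∀ p ∈ K, ∀ q ∈ K, p ≠ q → Ahat K (q - p) = 3 * (volume K).toReal →
        (p ∈ ⋃ j, segment ℝ (α j) (β j)) ∨ (q ∈ ⋃ j, segment ℝ (α j) (β j)) := by
  obtain ⟨α, β, hmem, hhit⟩ := M4_hitting_of_star hK
  exact ⟨α, β, hmem, fun p hp q hq hpq heff =>
    hhit p hp q hq (fun x hx => M3b hK hp hq hpq heff hx)⟩

end Vale.Agent.Lib.P243.R3.H44
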